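import Mathlib

/-!
# P155: discrete optional stopping and Riemann sums
-/

namespace Vale.Agent.P155.GD

open MeasureTheory Set Filter Topology
open scoped NNReal ENNReal

section dis

variable {Ω : Type} [MeasurableSpace Ω] {P : Measure Ω} [IsProbabilityMeasure P]
  {Y : ℕ → Ω → ℂ} {K : Set ℂ} {φ f Q : ℂ → ℝ≥0∞} {δ ε M : ℝ≥0∞} {x : ℂ}

/-- the chain stays in `K` up to the time `k` -/
def St (Y : ℕ → Ω → ℂ) (K : Set ℂ) (k : ℕ) : Set Ω := {q | ∀ j ≤ k, Y j q ∈ K}

omit [MeasurableSpace Ω] in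
theorem St_succ (k : ℕ) : St Y K (k + 1) ⊆ St Y K k := fun _ h j hj => h j (hj.trans k.le_succ)

theorem meas_St (hY : ∀ k, Measurable (Y k)) (hK : MeasurableSet K) (k : ℕ) :
    MeasurableSet (St Y K k) := by
  have : St Y K k = ⋂ j, ⋂ _ : j ≤ k, Y j ⁻¹' K := by
    ext
    simp [St]
  rw [this]
  exact MeasurableSet.iInter fun j => MeasurableSet.iInter fun _ => hY j hK

theorem rle (A : Set Ω) : P.restrict A univ ≤ 1 :=
  (Measure.restrict_apply_le _ _).trans prob_le_one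

theorem dis_up (hY : ∀ k, Measurable (Y k)) (hK : MeasurableSet K) (hf : Measurable f)
    (h0 : ∀ q, Y 0 q = x)
    (hM : ∀ k, ∫⁻ q in St Y K k, φ (Y (k + 1) q) ∂P = ∫⁻ q in St Y K k, Q (Y k q) ∂P)
    (ha : ∀ y ∈ K, Q y + f y ≤ φ y + δ) (N : ℕ) :
    ∫⁻ q in St Y K N, φ (Y N q) ∂P + ∑ k ∈ Finset.range N, ∫⁻ q in St Y K k, f (Y k q) ∂P ≤
      φ x + N * δ := by
  induction N with
  | zero =>
    simp only [h0, lintegral_const, Finset.range_zero, Finset.sum_empty, add_zero, Nat.cast_zero,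
      zero_mul]
    exact mul_le_of_le_one_right' (rle _)
  | succ N ih =>
    have h1 : ∫⁻ q in St Y K (N + 1), φ (Y (N + 1) q) ∂P + ∫⁻ q in St Y K N, f (Y N q) ∂P ≤
        ∫⁻ q in St Y K N, φ (Y N q) ∂P + δ := by
      calc _ ≤ ∫⁻ q in St Y K N, φ (Y (N + 1) q) ∂P + ∫⁻ q in St Y K N, f (Y N q) ∂P := by
            gcongr
            exact St_succ N
        _ = ∫⁻ q in St Y K N, (Q (Y N q) + f (Y N q)) ∂P := by
            rw [hM, lintegral_add_right _ (hf.fun_comp (hY N))]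
        _ ≤ ∫⁻ q in St Y K N, (φ (Y N q) + δ) ∂P :=
            setLIntegral_mono' (meas_St hY hK N) fun q hq => ha _ (hq N le_rfl)
        _ ≤ _ := by
            rw [lintegral_add_right _ measurable_const, lintegral_const]
            gcongr
            exact mul_le_of_le_one_right' (rle _)
    rw [Finset.sum_range_succ, Nat.cast_succ, add_mul, one_mul, ← add_assoc (φ x)]
    calc _ = ∫⁻ q in St Y K (N + 1), φ (Y (N + 1) q) ∂P + ∫⁻ q in St Y K N, f (Y N q) ∂P +
          ∑ k ∈ Finset.range N, ∫⁻ q in St Y K k, f (Y k q) ∂P := by ring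
      _ ≤ ∫⁻ q in St Y K N, φ (Y N q) ∂P + δ +
          ∑ k ∈ Finset.range N, ∫⁻ q in St Y K k, f (Y k q) ∂P := by gcongr
      _ = ∫⁻ q in St Y K N, φ (Y N q) ∂P +
          ∑ k ∈ Finset.range N, ∫⁻ q in St Y K k, f (Y k q) ∂P + δ := by ring
      _ ≤ _ := by gcongr

theorem dis_low (hY : ∀ k, Measurable (Y k)) (hK : MeasurableSet K) (hf : Measurable f)
    (h0 : ∀ q, Y 0 q = x) (hx : x ∈ K)
    (hM : ∀ k, ∫⁻ q in St Y K k, φ (Y (k + 1) q) ∂P = ∫⁻ q in St Y K k, Q (Y k q) ∂P)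
    (hb : ∀ y ∈ K, φ y ≤ Q y + f y + δ) (hε : ∀ y ∉ K, φ y ≤ ε) (N : ℕ) :
    φ x ≤ ∫⁻ q in St Y K N, φ (Y N q) ∂P + ε * P (St Y K N)ᶜ +
      ∑ k ∈ Finset.range N, ∫⁻ q in St Y K k, f (Y k q) ∂P + N * δ := by
  induction N with
  | zero =>
    have : St Y K 0 = univ := eq_univ_of_forall fun q j hj => by
      rw [Nat.le_zero.1 hj, h0]
      exact hx
    simp [this, h0]
  | succ N ih =>
    have m := meas_St hY hK
    have h2 : ∫⁻ q in St Y K N, φ (Y (N + 1) q) ∂P + ε * P (St Y K N)ᶜ ≤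
        ∫⁻ q in St Y K (N + 1), φ (Y (N + 1) q) ∂P + ε * P (St Y K (N + 1))ᶜ := by
      have e1 : St Y K N = St Y K (N + 1) ∪ (St Y K N \ St Y K (N + 1)) :=
        (union_sdiff_cancel (St_succ N)).symm
      have e2 : (St Y K (N + 1))ᶜ = (St Y K N \ St Y K (N + 1)) ∪ (St Y K N)ᶜ := by
        ext q
        have := @St_succ _ Y K N q
        simp only [mem_compl_iff, mem_union, Set.mem_sdiff]
        tauto
      rw [e2, measure_union (disjoint_compl_right.mono_left sdiff_subset) (m N).compl, mul_add,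
        ← add_assoc]
      gcongr
      nth_rw 1 [e1]
      rw [lintegral_union ((m N).diff (m _)) disjoint_sdiff_right, ← setLIntegral_const]
      refine add_le_add le_rfl
        (setLIntegral_mono' ((m N).diff (m _)) fun q hq => hε _ fun h => hq.2 fun j hj => ?_)
      rcases Nat.le_succ_iff.1 hj with h3 | rfl
      exacts [hq.1 j h3, h]
    have h1 : ∫⁻ q in St Y K N, φ (Y N q) ∂P ≤ ∫⁻ q in St Y K N, φ (Y (N + 1) q) ∂P +
        ∫⁻ q in St Y K N, f (Y N q) ∂P + δ := by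
      calc _ ≤ ∫⁻ q in St Y K N, (Q (Y N q) + f (Y N q) + δ) ∂P :=
            setLIntegral_mono' (m N) fun q hq => hb _ (hq N le_rfl)
        _ ≤ _ := by
            rw [lintegral_add_right _ measurable_const, lintegral_const, hM,
              lintegral_add_right _ (hf.fun_comp (hY N))]
            gcongr
            exact mul_le_of_le_one_right' (rle _)
    rw [Finset.sum_range_succ, Nat.cast_succ, add_mul, one_mul]
    calc _ ≤ _ := ih
      _ ≤ ∫⁻ q in St Y K N, φ (Y (N + 1) q) ∂P + ∫⁻ q in St Y K N, f (Y N q) ∂P + δ +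
          ε * P (St Y K N)ᶜ + ∑ k ∈ Finset.range N, ∫⁻ q in St Y K k, f (Y k q) ∂P + N * δ := by
          gcongr
      _ = ∫⁻ q in St Y K N, φ (Y (N + 1) q) ∂P + ε * P (St Y K N)ᶜ +
          (∑ k ∈ Finset.range N, ∫⁻ q in St Y K k, f (Y k q) ∂P +
          ∫⁻ q in St Y K N, f (Y N q) ∂P) + (N * δ + δ) := by ring
      _ ≤ _ := by gcongr

end dis

/-- a Riemann sum as an integral -/
theorem riem (G : ℕ → ℝ≥0∞) {n : ℕ} (hn : 0 < n) (N : ℕ) :
    ∫⁻ t in Ico (0 : ℝ) (N / n), G ⌊t * n⌋₊ = ∑ k ∈ Finset.range N, ENNReal.ofReal (1 / n) * G k := by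
  have h0 : (0 : ℝ) < n := by positivity
  induction N with
  | zero => simp
  | succ N ih =>
    rw [Finset.sum_range_succ, ← ih, ← Ico_union_Ico_eq_Ico (b := (N : ℝ) / n) (by positivity)
      (by gcongr; simp), lintegral_union measurableSet_Ico Ico_disjoint_Ico_same,
      setLIntegral_congr_fun (s := Ico ((N : ℝ) / n) _) (g := fun _ => G N) measurableSet_Ico,
      setLIntegral_const, Real.volume_Ico, mul_comm (G N)]
    · congr 3
      push_cast
      ring
    · intro t ht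
      have h1 := (div_le_iff₀ h0).1 ht.1
      have h2 := (lt_div_iff₀ h0).1 ht.2
      simp only
      rw [(Nat.floor_eq_iff ((Nat.cast_nonneg N).trans h1)).2 ⟨h1, by exact_mod_cast h2⟩]

theorem tendsto_fl {t : ℝ} (ht : 0 ≤ t) :
    Tendsto (fun n : ℕ => (⌊t * n⌋₊ : ℝ) / n) atTop (𝓝 t) :=
  (tendsto_nat_floor_mul_div_atTop ht).comp tendsto_natCast_atTop_atTop

theorem fl_le {t : ℝ} (ht : 0 ≤ t) (n : ℕ) : (⌊t * n⌋₊ : ℝ) / n ≤ t :=
  div_le_of_le_mul₀ n.cast_nonneg ht (Nat.floor_le (by positivity))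

/-- the discrete observation of a path converges to the continuous one -/
theorem tendsto_obs {γ : ℝ → ℂ} (hγ : Continuous γ) {K : Set ℂ} (hK : IsClosed K) {f : ℂ → ℝ≥0∞}
    (hf : Continuous f) {t : ℝ} (ht : 0 ≤ t) :
    Tendsto (fun n : ℕ => {k : ℕ | ∀ j ≤ k, γ (j / n) ∈ K}.indicator (fun k => f (γ (k / n)))
      ⌊t * n⌋₊) atTop (𝓝 ({t : ℝ | MapsTo γ (Icc 0 t) K}.indicator (fun t => f (γ t)) t)) := by
  by_cases h : MapsTo γ (Icc 0 t) K
  · rw [indicator_of_mem (by exact h)]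
    refine ((hf.comp hγ).tendsto t |>.comp (tendsto_fl ht)).congr fun n => ?_
    rw [indicator_of_mem]
    · rfl
    · intro j hj
      refine h ⟨by positivity, le_trans ?_ (fl_le ht n)⟩
      gcongr
  · rw [indicator_of_notMem (by exact h)]
    simp only [MapsTo, not_forall] at h
    obtain ⟨s, hs, h⟩ := h
    refine tendsto_const_nhds.congr' ?_
    filter_upwards [(hγ.tendsto s |>.comp (tendsto_fl hs.1)).eventually
      (hK.isOpen_compl.mem_nhds h)] with n hn
    rw [indicator_of_notMem]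
    exact fun h' => hn (h' _ (Nat.floor_le_floor (by gcongr; exact hs.2)))

end Vale.Agent.P155.GD
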