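import Mathlib

/-!
# P155: the generator of planar Brownian motion (Taylor estimate)
-/

namespace Vale.Agent.P155.GD

open MeasureTheory ProbabilityTheory Set
open scoped NNReal ENNReal ContDiff

/-- directional derivative -/
noncomputable def D (e : ℂ) (φ : ℂ → ℝ) (w : ℂ) : ℝ := fderiv ℝ φ w e

/-- smooth with compact support -/
def SC (φ : ℂ → ℝ) : Prop := ContDiff ℝ ∞ φ ∧ HasCompactSupport φ

variable {φ ψ : ℂ → ℝ}

theorem SC.D (h : SC φ) (e : ℂ) : SC (D e φ) :=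
  ⟨(h.1.fderiv_right (m := ∞) (by norm_num)).clm_apply contDiff_const,
    (h.2.fderiv ℝ).comp_left (g := fun L : ℂ →L[ℝ] ℝ => L e) rfl⟩

theorem SC.bdd (h : SC φ) : ∃ M, 0 ≤ M ∧ ∀ z, |φ z| ≤ M := by
  obtain ⟨M, hM⟩ := h.1.continuous.bounded_above_of_compact_support h.2
  exact ⟨M, (norm_nonneg _).trans (hM 0), hM⟩

theorem SC.line (h : SC φ) (y e : ℂ) (t : ℝ) :
    HasDerivAt (fun t : ℝ => φ (y + t * e)) (GD.D e φ (y + t * e)) t := by
  have h1 : HasDerivAt (fun t : ℝ => y + t * e) e t := by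
    simpa using ((Complex.ofRealCLM.hasDerivAt (x := t)).mul_const e).const_add y
  exact ((h.1.differentiable (by simp)) _).hasFDerivAt.comp_hasDerivAt t h1

theorem t1 {g g1 : ℝ → ℝ} (hg : ∀ t, HasDerivAt g (g1 t) t) {M : ℝ} (hM : 0 ≤ M) {k : ℕ}
    (hb : ∀ t, |g1 t| ≤ M * |t| ^ k) (t : ℝ) : |g t - g 0| ≤ M * |t| ^ (k + 1) := by
  have := (convex_uIcc (0 : ℝ) t).norm_image_sub_le_of_norm_hasDerivWithin_le (C := M * |t| ^ k)
    (fun s _ => (hg s).hasDerivWithinAt) (fun s hs => (hb s).trans (by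
      have : |s| ≤ |t| := by simpa using abs_sub_left_of_mem_uIcc hs
      gcongr)) left_mem_uIcc right_mem_uIcc
  simpa [pow_succ, mul_assoc] using this

theorem l1 (h : SC ψ) {e : ℂ} {M : ℝ} (hM : ∀ z, |D e ψ z| ≤ M) (y : ℂ) (t : ℝ) :
    |ψ (y + t * e) - ψ y| ≤ M * |t| := by
  simpa using t1 (h.line y e) ((abs_nonneg _).trans (hM 0)) (k := 0) (fun t => by simpa using hM _) t

theorem l2 (h : SC ψ) {e : ℂ} {M : ℝ} (hM : ∀ z, |D e (D e ψ) z| ≤ M) (y : ℂ) (t : ℝ) :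
    |ψ (y + t * e) - ψ y - t * D e ψ y| ≤ M * |t| ^ 2 := by
  have := t1 (fun t => (h.line y e t).sub ((hasDerivAt_id t).mul_const (D e ψ y)))
    ((abs_nonneg _).trans (hM 0)) (k := 1) (fun t => by simpa using l1 (h.D e) hM y t) t
  convert this using 2
  simp
  ring

theorem l3 (h : SC ψ) {e : ℂ} {M : ℝ} (hM : ∀ z, |D e (D e (D e ψ)) z| ≤ M) (y : ℂ) (t : ℝ) :
    |ψ (y + t * e) - ψ y - t * D e ψ y - t ^ 2 / 2 * D e (D e ψ) y| ≤ M * |t| ^ 3 := by
  have := t1 (fun t => ((h.line y e t).sub ((hasDerivAt_id t).mul_const (D e ψ y))).sub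
    (((hasDerivAt_pow 2 t).div_const 2).mul_const (D e (D e ψ) y)))
    ((abs_nonneg _).trans (hM 0)) (k := 2) (fun t => by
      convert l2 (h.D e) hM y t using 2
      simp) t
  convert this using 2
  simp
  ring

theorem taylor (h : SC φ) : ∃ M, 0 ≤ M ∧ ∀ (y : ℂ) (u v : ℝ),
    |φ (y + (u + v * Complex.I)) - (φ y + u * D 1 φ y + v * D Complex.I φ y +
      u ^ 2 / 2 * D 1 (D 1 φ) y + v ^ 2 / 2 * D Complex.I (D Complex.I φ) y +
      u * v * D 1 (D Complex.I φ) y)| ≤ M * (|u| ^ 3 + |v| ^ 3) := by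
  obtain ⟨M1, p1, h1⟩ := (((h.D 1).D 1).D 1).bdd
  obtain ⟨M2, p2, h2⟩ := (((h.D Complex.I).D Complex.I).D Complex.I).bdd
  obtain ⟨M3, p3, h3⟩ := (((h.D Complex.I).D Complex.I).D 1).bdd
  obtain ⟨M4, p4, h4⟩ := (((h.D Complex.I).D 1).D 1).bdd
  refine ⟨M1 + M2 + M3 + M4, by positivity, fun y u v => ?_⟩
  have a1 := l3 h h1 y u
  have a2 := l3 h h2 (y + u * 1) v
  have a3 := l1 ((h.D Complex.I).D Complex.I) h3 y u
  have a4 := l2 (h.D Complex.I) h4 y u
  have e : y + (u + v * Complex.I) = y + u * 1 + v * Complex.I := by ring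
  rw [e]
  have hu := abs_nonneg u
  have hv := abs_nonneg v
  have b3 : |v ^ 2 / 2 * (D Complex.I (D Complex.I φ) (y + u * 1) -
      D Complex.I (D Complex.I φ) y)| ≤ M3 * (|u| ^ 3 + |v| ^ 3) := by
    rw [abs_mul, abs_div, abs_pow, abs_two]
    refine (mul_le_mul_of_nonneg_left a3 (by positivity)).trans ?_
    have : |v| ^ 2 / 2 * |u| ≤ |u| ^ 3 + |v| ^ 3 := by
      nlinarith [mul_nonneg (add_nonneg hu hv) (sq_nonneg (|u| - |v|)), pow_nonneg hu 3,
        pow_nonneg hv 3, mul_nonneg hv (sq_nonneg |u|), mul_nonneg hu (sq_nonneg |v|)]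
    nlinarith
  have b4 : |v * (D Complex.I φ (y + u * 1) - D Complex.I φ y - u * D 1 (D Complex.I φ) y)| ≤
      M4 * (|u| ^ 3 + |v| ^ 3) := by
    rw [abs_mul]
    refine (mul_le_mul_of_nonneg_left a4 hv).trans ?_
    have : |v| * |u| ^ 2 ≤ |u| ^ 3 + |v| ^ 3 := by
      nlinarith [mul_nonneg (add_nonneg hu hv) (sq_nonneg (|u| - |v|)), pow_nonneg hu 3,
        pow_nonneg hv 3, mul_nonneg hv (sq_nonneg |u|), mul_nonneg hu (sq_nonneg |v|)]
    nlinarith
  rw [abs_le] at a1 a2 b3 b4 ⊢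
  have c1 := mul_nonneg p1 (pow_nonneg hv 3)
  have c2 := mul_nonneg p2 (pow_nonneg hu 3)
  constructor <;> nlinarith [a1.1, a1.2, a2.1, a2.2, b3.1, b3.2, b4.1, b4.2]

theorem gauss_cube : ∃ c : ℝ, ∀ h : ℝ≥0, Integrable (fun u : ℝ => |u| ^ 3) (gaussianReal 0 h) ∧
    ∫ u, |u| ^ 3 ∂gaussianReal 0 h = c * √h ^ 3 := by
  have i (h : ℝ≥0) : Integrable (fun u : ℝ => |u| ^ 3) (gaussianReal 0 h) := by
    simpa using (memLp_id_gaussianReal (μ := 0) (v := h) 3).integrable_norm_pow' 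
  refine ⟨∫ u, |u| ^ 3 ∂gaussianReal 0 1, fun h => ⟨i h, ?_⟩⟩
  have e : gaussianReal 0 h = (gaussianReal 0 1).map (√h * ·) := by
    rw [gaussianReal_map_const_mul]
    congr 1
    · simp
    · ext
      simp
  rw [e, integral_map (by fun_prop) (by fun_prop), ← integral_mul_const]
  congr 1
  ext u
  rw [abs_mul, abs_of_nonneg (Real.sqrt_nonneg _)]
  ring

/-- one step of planar Brownian motion -/
theorem step (h : SC φ) : ∃ C : ℝ, 0 ≤ C ∧ ∀ {Ω : Type} [MeasurableSpace Ω] (P : Measure Ω)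
    [IsProbabilityMeasure P] (X Y : Ω → ℝ) (s : ℝ≥0), HasLaw X (gaussianReal 0 s) P →
    HasLaw Y (gaussianReal 0 s) P → IndepFun X Y P → ∀ y : ℂ,
    |∫ q, φ (y + (X q + Y q * Complex.I)) ∂P -
      (φ y + s / 2 * (D 1 (D 1 φ) y + D Complex.I (D Complex.I φ) y))| ≤ C * √s ^ 3 := by
  obtain ⟨M, hM, hT⟩ := taylor h
  obtain ⟨c, hc⟩ := gauss_cube
  obtain ⟨B, -, hB⟩ := h.bdd
  refine ⟨M * (2 * |c|), by positivity, fun {Ω} _ P _ X Y s hX hY hI y => ?_⟩
  have m2 : ∀ {X : Ω → ℝ}, HasLaw X (gaussianReal 0 s) P → MemLp X 2 P ∧ ∫ q, X q ∂P = 0 ∧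
      ∫ q, X q ^ 2 ∂P = s ∧ Integrable (fun q => |X q| ^ 3) P ∧
      ∫ q, |X q| ^ 3 ∂P = c * √s ^ 3 := by
    intro X hX
    have e0 : ∫ q, X q ∂P = 0 := by rw [hX.integral_eq, integral_id_gaussianReal]
    refine ⟨hX.hasGaussianLaw.memLp_two, e0, ?_, ?_, ?_⟩
    · have := hX.variance_eq
      rw [variance_id_gaussianReal, variance_eq_integral hX.aemeasurable, e0] at this
      simpa using this
    · exact (hX.map_eq ▸ (hc s).1 :).comp_aemeasurable hX.aemeasurable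
    · rw [← (hc s).2]
      exact hX.integral_comp (f := fun u : ℝ => |u| ^ 3) (by fun_prop)
  obtain ⟨x1, x2, x3, x4, x5⟩ := m2 hX
  obtain ⟨y1, y2, y3, y4, y5⟩ := m2 hY
  have z : ∫ q, X q * Y q ∂P = 0 := by
    rw [hI.integral_fun_mul_eq_mul_integral x1.1 y1.1, x2, zero_mul]
  have i0 : Integrable (fun q => φ (y + (X q + Y q * Complex.I))) P :=
    Integrable.of_bound (h.1.continuous.measurable.comp_aemeasurable (by
      have := hX.aemeasurable
      have := hY.aemeasurable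
      fun_prop)).aestronglyMeasurable B (ae_of_all _ fun q => hB _)
  have i1 := (x1.integrable one_le_two).mul_const (D 1 φ y)
  have i2 := (y1.integrable one_le_two).mul_const (D Complex.I φ y)
  have i3 := (x1.integrable_sq.div_const 2).mul_const (D 1 (D 1 φ) y)
  have i4 := (y1.integrable_sq.div_const 2).mul_const (D Complex.I (D Complex.I φ) y)
  have i5 : Integrable (fun q => X q * Y q * D 1 (D Complex.I φ) y) P :=
    (x1.integrable_mul y1).mul_const _
  have i6 : Integrable (fun _ : Ω => φ y) P := integrable_const _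
  have e : φ y + s / 2 * (D 1 (D 1 φ) y + D Complex.I (D Complex.I φ) y) =
      ∫ q, (φ y + X q * D 1 φ y + Y q * D Complex.I φ y + X q ^ 2 / 2 * D 1 (D 1 φ) y +
        Y q ^ 2 / 2 * D Complex.I (D Complex.I φ) y + X q * Y q * D 1 (D Complex.I φ) y) ∂P := by
    rw [integral_add ((((i6.fun_add i1).fun_add i2).fun_add i3).fun_add i4) i5,
      integral_add (((i6.fun_add i1).fun_add i2).fun_add i3) i4,
      integral_add ((i6.fun_add i1).fun_add i2) i3,
      integral_add (i6.fun_add i1) i2, integral_add i6 i1]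
    simp only [integral_mul_const, integral_div, x2, y2, x3, y3, z, integral_const, probReal_univ,
      smul_eq_mul]
    ring
  rw [e, ← integral_sub i0 (((((i6.fun_add i1).fun_add i2).fun_add i3).fun_add i4).fun_add i5)]
  rw [← Real.norm_eq_abs]
  refine le_trans (norm_integral_le_of_norm_le ((x4.fun_add y4).const_mul M)
    (ae_of_all _ fun q => ?_)) ?_
  · exact hT y _ _
  rw [integral_const_mul, integral_add x4 y4, x5, y5, mul_assoc]
  have := le_abs_self c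
  have : 0 ≤ √(s : ℝ) ^ 3 := by positivity
  gcongr
  nlinarith

end Vale.Agent.P155.GD
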