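import Vale.Agent.P155B.Def2
import Vale.Agent.P155G.Tay
import Vale.Agent.P155G.Dis

/-!
# P155: the Dynkin formula for planar Brownian motion in a compact set
-/

namespace Vale.Agent.P155.GD

open MeasureTheory ProbabilityTheory Set Filter Topology Vale.Agent.P155.BL
open scoped NNReal ENNReal

/-- the simple Markov property -/
def MK (W : Measure Pa) : Prop := ∀ (x : ℂ) (s : ℝ), 0 ≤ s → ∀ H : Pr × Pr → ℝ≥0∞, Measurable H →
  ∫⁻ q, H (stp s (bm x q), sft s (bm x q)) ∂W =
    ∫⁻ q, ∫⁻ q', H (stp s (bm x q), bm (bm x q s) q') ∂W ∂W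

/-- the path started at `x` stays in `K` up to the time `t ≥ 0` -/
def E (x : ℂ) (K : Set ℂ) : Set (Pa × ℝ) := {p | 0 ≤ p.2 ∧ MapsTo (bm x p.1) (Icc 0 p.2) K}

/-- the occupation functional -/
noncomputable def occ (W : Measure Pa) (x : ℂ) (K : Set ℂ) (g : ℂ → ℝ≥0∞) : ℝ≥0∞ :=
  ∫⁻ p in E x K, g (bm x p.1 p.2) ∂W.prod volume

variable {W : Measure Pa} {x : ℂ} {K : Set ℂ}

theorem cont_bm (x : ℂ) : Continuous fun p : Pa × ℝ => bm x p.1 p.2 := by
  show Continuous fun p : Pa × ℝ => x + (p.1 p.2.toNNReal - p.1 0)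
  fun_prop

theorem meas_bm (x : ℂ) (t : ℝ) : Measurable fun q : Pa => bm x q t :=
  ((cont_bm x).comp (Continuous.prodMk_left t)).measurable

theorem bm_zero (x : ℂ) (q : Pa) : bm x q 0 = x := by simp [bm]

theorem closed_E (hK : IsClosed K) : IsClosed (E x K) := by
  have : E x K = {p | 0 ≤ p.2} ∩ ⋂ s ∈ Ici (0 : ℝ), {p | bm x p.1 (min s p.2) ∈ K} := by
    ext p
    simp only [E, mem_ofPred_eq, mem_inter_iff, mem_iInter]
    refine and_congr_right fun h => ⟨fun h1 s hs => h1 ⟨le_min hs h, min_le_right _ _⟩,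
      fun h1 s hs => ?_⟩
    simpa [hs.2] using h1 s hs.1
  rw [this]
  refine (isClosed_le continuous_const continuous_snd).inter (isClosed_biInter fun s _ =>
    hK.preimage ((cont_bm x).comp (f := fun p : Pa × ℝ => (p.1, min s p.2)) (by fun_prop)))

theorem prob (hW : IsWiener W) : IsProbabilityMeasure W :=
  hW.re.isGaussianProcess.isProbabilityMeasure

theorem law_inc {X : ℂ → ℝ} (h : IsBrownianReal (fun t (q : Pa) => X (q t)) W) (s : ℝ≥0) :
    HasLaw (fun q : Pa => X (q s) - X (q 0)) (gaussianReal 0 s) W := by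
  have := h.hasLaw_sub s 0
  simp only [NNReal.val_eq_coe, NNReal.coe_zero, nndist_zero_right, NNReal.nnnorm_eq] at this
  exact this

theorem step_bm (hW : IsWiener W) {φ : ℂ → ℝ} (h : SC φ) : ∃ C : ℝ, 0 ≤ C ∧ ∀ s : ℝ, 0 ≤ s →
    ∀ y : ℂ, |∫ q, φ (bm y q s) ∂W -
      (φ y + s / 2 * (D 1 (D 1 φ) y + D Complex.I (D Complex.I φ) y))| ≤ C * √s ^ 3 := by
  obtain ⟨C, hC, h⟩ := step h
  have := prob hW
  refine ⟨C, hC, fun s hs y => ?_⟩
  lift s to ℝ≥0 using hs
  have := h W _ _ s (law_inc hW.re s) (law_inc hW.im s)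
    (hW.ind.comp (φ := fun g : ℝ≥0 → ℝ => g s - g 0) (ψ := fun g : ℝ≥0 → ℝ => g s - g 0)
      (by fun_prop) (by fun_prop)) y
  convert this using 6 with q
  apply Complex.ext <;> simp [bm]

theorem escape (hW : IsWiener W) (hK : Bornology.IsBounded K) :
    Tendsto (fun T : ℕ => W {q | bm x q T ∈ K}) atTop (𝓝 0) := by
  obtain ⟨R, hR⟩ := (Metric.isBounded_iff_subset_closedBall x).1 hK
  have h1 : Tendsto (fun T : ℕ => ENNReal.ofReal (√(2 * Real.pi * T))⁻¹ * volume (Icc (-R) R))
      atTop (𝓝 0) := by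
    have := ENNReal.Tendsto.mul_const (b := volume (Icc (-R) R)) (ENNReal.tendsto_ofReal
      ((Real.tendsto_sqrt_atTop.comp (tendsto_natCast_atTop_atTop.const_mul_atTop
        (by positivity : 0 < 2 * Real.pi))).inv_tendsto_atTop)) (Or.inr (by simp))
    simpa using this
  refine tendsto_of_tendsto_of_tendsto_of_le_of_le' tendsto_const_nhds h1
    (Eventually.of_forall fun _ => zero_le) ?_
  filter_upwards [eventually_gt_atTop 0] with T hT
  have h2 := (law_inc hW.re T).measure_eq (p := fun u => u ∈ Icc (-R) R) measurableSet_Icc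
  calc _ ≤ W {q : Pa | (q T).re - (q 0).re ∈ Icc (-R) R} := measure_mono fun q hq => by
        have h3 := hR hq
        rw [Metric.mem_closedBall, Complex.dist_eq] at h3
        have h4 := (Complex.abs_re_le_norm _).trans h3
        simpa [bm, abs_le] using h4
    _ = ∫⁻ u in Icc (-R) R, gaussianPDF 0 T u := by
        rw [h2, gaussianReal_apply _ (by positivity)]
        rfl
    _ ≤ _ := by
        rw [← setLIntegral_const]
        refine lintegral_mono fun u => ENNReal.ofReal_le_ofReal ?_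
        refine mul_le_of_le_one_right (by positivity) (Real.exp_le_one_iff.2 ?_)
        exact div_nonpos_of_nonpos_of_nonneg (neg_nonpos.2 (sq_nonneg _)) (by positivity)

/-- the observed chain -/
noncomputable def ch (x : ℂ) (n k : ℕ) (q : Pa) : ℂ := bm x q (k / n)

theorem meas_ch (x : ℂ) (n k : ℕ) : Measurable (ch x n k) := meas_bm x _

theorem markov_ch (hM : MK W) (hK : MeasurableSet K) {φ : ℂ → ℝ≥0∞} (hφ : Measurable φ)
    (n k : ℕ) : ∫⁻ q in St (ch x n) K k, φ (ch x n (k + 1) q) ∂W =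
      ∫⁻ q in St (ch x n) K k, ∫⁻ q', φ (bm (ch x n k q) q' (1 / n)) ∂W ∂W := by
  have m1 (t : ℝ) : Measurable fun γ : Pr => γ t := (continuous_eval_const t).measurable
  have m2 : MeasurableSet (St (fun j (p : Pr × Pr) => p.1 (j / n)) K k) :=
    meas_St (fun j => (m1 _).comp measurable_fst) hK k
  have m3 := meas_St (meas_ch x n) hK k
  have e (q : Pa) (γ : Pr) : (stp (k / n) (bm x q), γ) ∈ St (fun j (p : Pr × Pr) => p.1 (j / n)) K k
      ↔ q ∈ St (ch x n) K k := forall₂_congr fun j hj => by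
    have : (j : ℝ) / n ≤ k / n := by gcongr
    simp [stp, ch, this]
  have := hM x (k / n) (by positivity) _ (((hφ.comp (m1 (1 / n))).comp measurable_snd).indicator m2)
  rw [← lintegral_indicator m3, ← lintegral_indicator m3]
  convert this using 3 with q q
  · by_cases h : q ∈ St (ch x n) K k
    · rw [indicator_of_mem h, indicator_of_mem ((e q _).2 h)]
      simp [sft, ch, add_div]
    · rw [indicator_of_notMem h, indicator_of_notMem (mt (e q _).1 h)]
  · by_cases h : q ∈ St (ch x n) K k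
    · simp only [indicator_of_mem h, indicator_of_mem ((e q _).2 h)]
      rfl
    · simp only [indicator_of_notMem h, indicator_of_notMem (mt (e q _).1 h), lintegral_zero]

theorem tendsto_riem [IsProbabilityMeasure W] (hK : IsClosed K) {g : ℂ → ℝ≥0∞} (hg : Continuous g)
    {B : ℝ≥0∞} (hB : B ≠ ⊤) (hb : ∀ y ∈ K, g y ≤ B) (T : ℕ) :
    Tendsto (fun n : ℕ => ∑ k ∈ Finset.range (T * n), ∫⁻ q in St (ch x n) K k,
      ENNReal.ofReal (1 / n) * g (ch x n k q) ∂W) atTop
      (𝓝 (∫⁻ p in E x K ∩ univ ×ˢ Iio (T : ℝ), g (bm x p.1 p.2) ∂W.prod volume)) := by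
  set G : ℕ → Pa × ℕ → ℝ≥0∞ := fun n p => (St (ch x n) K p.2).indicator (fun q => g (ch x n p.2 q)) p.1
  have m3 (n) := meas_St (meas_ch x n) hK.measurableSet
  have m0 (n k) : Measurable fun q => G n (q, k) :=
    (hg.measurable.comp (meas_ch x n k)).indicator (m3 n k)
  have m1 (n : ℕ) : Measurable fun p : Pa × ℝ => G n (p.1, ⌊p.2 * n⌋₊) :=
    (measurable_from_prod_countable_left (m0 n)).comp
      (measurable_fst.prodMk (measurable_snd.mul_const _).nat_floor)
  have h1 := tendsto_lintegral_of_dominated_convergence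
    (μ := (W.prod volume).restrict (univ ×ˢ Ico (0 : ℝ) T))
    (f := (E x K).indicator fun p => g (bm x p.1 p.2)) (fun _ => B) m1
    (fun n => ae_of_all _ fun p => indicator_apply_le' (fun h => hb _ (h _ le_rfl)) fun _ => zero_le)
    (by simp [ENNReal.mul_eq_top, hB])
    (ae_restrict_of_forall_mem (MeasurableSet.univ.prod measurableSet_Ico) fun p hp => by
      convert tendsto_obs (bm x p.1).continuous hK hg hp.2.1 using 2 with n
      · by_cases h : p.1 ∈ St (ch x n) K ⌊p.2 * n⌋₊
        · rw [indicator_of_mem (by exact h)]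
          exact indicator_of_mem h _
        · rw [indicator_of_notMem (by exact h)]
          exact indicator_of_notMem h _
      by_cases h : MapsTo (bm x p.1) (Icc 0 p.2) K
      · rw [indicator_of_mem (by exact ⟨hp.2.1, h⟩), indicator_of_mem (by exact h)]
      · rw [indicator_of_notMem fun h' => h h'.2, indicator_of_notMem (by exact h)])
  have e : E x K ∩ univ ×ˢ Ico (0 : ℝ) T = E x K ∩ univ ×ˢ Iio (T : ℝ) := by
    ext p
    exact and_congr_right fun h => by simp [h.1]
  rw [lintegral_indicator (closed_E hK).measurableSet,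
    Measure.restrict_restrict (closed_E hK).measurableSet, e] at h1
  refine h1.congr' ?_
  filter_upwards [eventually_gt_atTop 0] with n hn
  have e2 : (T : ℝ) = (T * n : ℕ) / n := by
    push_cast
    field_simp
  rw [setLIntegral_prod _ (m1 n).aemeasurable, Measure.restrict_univ, e2]
  simp only [fun q => riem (fun k => G n (q, k)) hn]
  rw [lintegral_finsetSum _ fun k _ => (m0 n k).const_mul _]
  refine Finset.sum_congr rfl fun k _ => ?_
  rw [← lintegral_indicator (m3 n k)]
  congr 1
  ext q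
  by_cases h : q ∈ St (ch x n) K k <;> simp [G, h]

/-- the Dynkin formula, as two inequalities -/
theorem dyn (hW : IsWiener W) (hM : MK W) {φ f : ℂ → ℝ} (hφ : SC φ) (p : ∀ z, 0 ≤ φ z)
    (hK : IsCompact K) (hx : x ∈ K) (hf : Continuous f) (hf0 : ∀ z, 0 ≤ f z)
    (hΔ : ∀ y ∈ K, D 1 (D 1 φ) y + D Complex.I (D Complex.I φ) y = -(2 * f y)) {ε : ℝ}
    (hε : ∀ y ∉ K, φ y ≤ ε) :
    occ W x K (fun y => ENNReal.ofReal (f y)) ≤ ENNReal.ofReal (φ x) ∧
    ENNReal.ofReal (φ x) ≤ ENNReal.ofReal ε + occ W x K (fun y => ENNReal.ofReal (f y)) := by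
  have := prob hW
  obtain ⟨C, hC, hS⟩ := step_bm hW hφ
  obtain ⟨M, -, hb⟩ := hφ.bdd
  obtain ⟨B, hB⟩ := hK.exists_bound_of_continuousOn hf.continuousOn
  have mφ : Measurable fun y => ENNReal.ofReal (φ y) := hφ.1.continuous.measurable.ennreal_ofReal
  have hR := tendsto_riem (W := W) (x := x) hK.isClosed (ENNReal.continuous_ofReal.comp hf)
    ENNReal.ofReal_ne_top fun y hy => ENNReal.ofReal_le_ofReal ((le_abs_self _).trans (hB y hy))
  have hδ (T : ℕ) : Tendsto (fun n : ℕ => ((T * n : ℕ) : ℝ≥0∞) *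
      ENNReal.ofReal (C * √(1 / n) ^ 3)) atTop (𝓝 0) := by
    have h1 := ENNReal.tendsto_ofReal ((Real.continuous_sqrt.tendsto 0 |>.comp
      tendsto_one_div_atTop_nhds_zero_nat).const_mul (T * C))
    simp only [Real.sqrt_zero, mul_zero, ENNReal.ofReal_zero] at h1
    refine h1.congr' ?_
    filter_upwards [eventually_gt_atTop 0] with n hn
    rw [← ENNReal.ofReal_natCast, ← ENNReal.ofReal_mul (by positivity), pow_succ,
      Real.sq_sqrt (by positivity)]
    congr 1
    simp only [Function.comp]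
    push_cast
    field_simp
  have hQ (n : ℕ) (y : ℂ) : ∫⁻ q, ENNReal.ofReal (φ (bm y q (1 / n))) ∂W =
      ENNReal.ofReal (∫ q, φ (bm y q (1 / n)) ∂W) :=
    (ofReal_integral_eq_lintegral_ofReal (Integrable.of_bound (hφ.1.continuous.measurable.comp
      (meas_bm _ _)).aestronglyMeasurable M (ae_of_all _ fun _ => hb _)) (ae_of_all _ fun _ => p _)).symm
  have hs (n : ℕ) (y : ℂ) (hy : y ∈ K) := abs_le.1 (hΔ y hy ▸ hS (1 / n) (by positivity) y)
  have q0 (n : ℕ) (y : ℂ) : 0 ≤ ∫ q, φ (bm y q (1 / n)) ∂W := integral_nonneg fun _ => p _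
  have mf (n : ℕ) : Measurable fun y => ENNReal.ofReal (1 / n) * ENNReal.ofReal (f y) :=
    hf.measurable.ennreal_ofReal.const_mul _
  have h0 (n : ℕ) (q : Pa) : ch x n 0 q = x := by simp [ch, bm_zero]
  constructor
  · have e : E x K = ⋃ T : ℕ, E x K ∩ univ ×ˢ Iio (T : ℝ) := by
      rw [← inter_iUnion, ← prod_iUnion, iUnion_Iio_eq_univ_iff.2 ?_, univ_prod_univ, inter_univ]
      rintro ⟨c, hc⟩
      obtain ⟨n, hn⟩ := exists_nat_gt c
      exact hn.not_ge (hc ⟨n, rfl⟩)
    rw [occ, e, setLIntegral_iUnion_of_directed _ (Monotone.directed_le fun a b h => by gcongr)]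
    refine iSup_le fun T => (le_of_tendsto_of_tendsto' (hR T)
      ((hδ T).const_add (ENNReal.ofReal (φ x))) fun n => ?_).trans_eq (add_zero _)
    refine le_trans le_add_self (dis_up (φ := fun y => ENNReal.ofReal (φ y))
      (Q := fun y => ∫⁻ q, ENNReal.ofReal (φ (bm y q (1 / n))) ∂W)
      (meas_ch x n) hK.measurableSet (mf n) (h0 n)
      (markov_ch hM hK.measurableSet mφ n) (fun y hy => ?_) (T * n))
    rw [hQ, ← ENNReal.ofReal_mul (by positivity), ← ENNReal.ofReal_add (q0 n y)
      (mul_nonneg (by positivity) (hf0 y)), ← ENNReal.ofReal_add (p y) (by positivity)]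
    exact ENNReal.ofReal_le_ofReal (by linarith [(hs n y hy).2])
  · have h3 := ENNReal.Tendsto.const_mul (a := ENNReal.ofReal M) (escape (x := x) hW hK.isBounded)
      (Or.inr ENNReal.ofReal_ne_top)
    refine ge_of_tendsto' (by simpa using h3.add_const (ENNReal.ofReal ε +
      occ W x K (fun y => ENNReal.ofReal (f y)))) fun T => ?_
    refine le_trans (ge_of_tendsto (((hR T).const_add (ENNReal.ofReal M * W {q | bm x q T ∈ K} +
      ENNReal.ofReal ε)).add (hδ T)) ?_) ?_
    · filter_upwards [eventually_gt_atTop 0] with n hn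
      refine (dis_low (φ := fun y => ENNReal.ofReal (φ y))
        (Q := fun y => ∫⁻ q, ENNReal.ofReal (φ (bm y q (1 / n))) ∂W)
        (δ := ENNReal.ofReal (C * √(1 / n) ^ 3)) (meas_ch x n) hK.measurableSet (mf n) (h0 n) hx
        (markov_ch hM hK.measurableSet mφ n) (fun y hy => ?_)
        (fun y hy => ENNReal.ofReal_le_ofReal (hε y hy)) (T * n)).trans ?_
      · rw [hQ, ← ENNReal.ofReal_mul (by positivity), ← ENNReal.ofReal_add (q0 n y)
          (mul_nonneg (by positivity) (hf0 y)), ← ENNReal.ofReal_add (add_nonneg (q0 n y)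
          (mul_nonneg (by positivity) (hf0 y))) (by positivity)]
        exact ENNReal.ofReal_le_ofReal (by linarith [(hs n y hy).1])
      · gcongr
        · refine (lintegral_mono fun q => ENNReal.ofReal_le_ofReal
            ((le_abs_self _).trans (hb _))).trans ?_
          rw [setLIntegral_const]
          gcongr
          intro q hq
          have e2 : (T : ℝ) = (T * n : ℕ) / n := by
            push_cast
            field_simp
          rw [mem_ofPred_eq, e2]
          exact hq _ le_rfl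
        · exact mul_le_of_le_one_right' prob_le_one
        · exact le_rfl
    · rw [add_zero, add_assoc]
      gcongr
      exact lintegral_mono_set inter_subset_left

end Vale.Agent.P155.GD
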