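import Vale.Agent.P155G.Green
import Vale.Agent.P155Z.RIEM

/-!
# P155: the Green matrix of Brownian motion is twice the Green energy
-/

namespace Vale.Agent.P155.GD

open MeasureTheory Set Filter Topology Metric Vale.Agent.P155.Tree Vale.Agent.P155.U
open Vale.Agent.P155.BL Vale.Agent.P155.LJ Matrix
open scoped ENNReal

variable {W : Measure Pa} {U : Set ℂ} {x y : ℂ} {t : ℝ} {φ ψ : ℂ → ℝ}

theorem qk_eq (hU : IsOpen U) : qk W U t x y = BL.hk t (y - x) * W {q | range (br t x y q) ⊆ U} := by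
  rw [qk, Wb, Measure.smul_apply, Measure.map_apply (by fun_prop) (measurableSet_range_open hU)]
  rfl

theorem Gk_left (hU : IsOpen U) (hx : x ∉ U) (y : ℂ) : Gk W U x y = 0 := by
  have (t : ℝ) : {q | range (br t x y q) ⊆ U} = ∅ :=
    eq_empty_of_forall_notMem fun q hq => hx (hq ⟨0, br_of_nonpos le_rfl⟩)
  simp [Gk, qk_eq hU, this]

theorem Gk_comp (hU : IsOpen U) (x y : ℂ) : Gk W U x y = Gk W (connectedComponentIn U x) x y := by
  simp only [Gk, qk_eq hU, qk_eq hU.connectedComponentIn]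
  congr with t
  congr with q
  exact ⟨fun h => (isPreconnected_range (br t x y q).continuous).subset_connectedComponentIn
    ⟨0, br_of_nonpos le_rfl⟩ h, fun h => h.trans (connectedComponentIn_subset _ _)⟩

theorem Gk_symm (hW : IsWiener W) (hU : IsOpen U) (x y : ℂ) : Gk W U x y = Gk W U y x := by
  refine setLIntegral_congr_fun measurableSet_Ioi fun t ht => ?_
  simp only [qk]
  rw [← hW.rev_map ht, Measure.map_apply (by fun_prop) (measurableSet_range_open hU)]
  congr with γ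
  have : range (BL.rev t γ) = range γ :=
    (Equiv.subLeft t).surjective.range_comp γ
  rw [mem_preimage, mem_ofPred_eq, this, mem_ofPred_eq]

theorem Gk_mono {V : Set ℂ} (h : U ⊆ V) (x y : ℂ) : Gk W U x y ≤ Gk W V x y :=
  lintegral_mono fun _ => measure_mono fun _ hγ => hγ.trans h

theorem Gk_fin (hW : IsWiener W) (hU : IsOpen U) (hb : Bornology.IsBounded U) :
    ∫⁻ p : ℂ × ℂ, Gk W U p.1 p.2 ∂volume.prod volume ≠ ⊤ := by
  obtain ⟨R, hR, h⟩ := hb.subset_closedBall_lt 0 0
  rw [lintegral_prod _ (meas_Gk hW hU).aemeasurable]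
  refine ne_top_of_le_ne_top (b := ∫⁻ x, U.indicator (fun _ => ENNReal.ofReal (2 * R ^ 2)) x) ?_
    (lintegral_mono fun x => ?_)
  · rw [lintegral_indicator_const hU.measurableSet]
    exact ENNReal.mul_ne_top ENNReal.ofReal_ne_top hb.measure_lt_top.ne
  · by_cases hx : x ∈ U
    · simpa [hx] using Gk_mass hW hU hR h hx
    · simp [Gk_left hU hx]

/-- the bilinear form of the Green kernel -/
noncomputable def gb (W : Measure Pa) (U : Set ℂ) (φ ψ : ℂ → ℝ) : ℝ :=
  ∫ p : ℂ × ℂ, φ p.1 * ψ p.2 * (Gk W U p.1 p.2).toReal ∂volume.prod volume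

theorem int_mul {k : ℂ × ℂ → ℝ} {μ : Measure (ℂ × ℂ)} (hk : Integrable k μ) (hφ : BMf φ)
    (hψ : BMf ψ) : Integrable (fun p : ℂ × ℂ => φ p.1 * ψ p.2 * k p) μ := by
  obtain ⟨m1, M1, h1⟩ := hφ
  obtain ⟨m2, M2, h2⟩ := hψ
  refine hk.bdd_mul (c := M1 * M2)
    ((m1.comp measurable_fst).mul (m2.comp measurable_snd)).aestronglyMeasurable
    (ae_of_all _ fun p => ?_)
  rw [norm_mul]
  exact mul_le_mul (h1 _) (h2 _) (norm_nonneg _) ((abs_nonneg _).trans (h1 0))

theorem int_gb (hW : IsWiener W) (hU : IsOpen U) (hb : Bornology.IsBounded U) (hφ : BMf φ)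
    (hψ : BMf ψ) : Integrable (fun p : ℂ × ℂ => φ p.1 * ψ p.2 * (Gk W U p.1 p.2).toReal)
      (volume.prod volume) :=
  int_mul (integrable_toReal_of_lintegral_ne_top (meas_Gk hW hU).aemeasurable (Gk_fin hW hU hb))
    hφ hψ

theorem gb_symm (hW : IsWiener W) (hU : IsOpen U) (φ ψ : ℂ → ℝ) : gb W U φ ψ = gb W U ψ φ := by
  rw [gb, ← integral_prod_swap]
  refine integral_congr_ae (ae_of_all _ fun p => ?_)
  simp only [Prod.fst_swap, Prod.snd_swap]
  rw [Gk_symm hW hU, mul_comm (φ _)]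

/-- **The quadratic form of the Green kernel is twice the Green energy.** -/
theorem gb_self (hW : IsWiener W) (hU : IsOpen U) (hb : Bornology.IsBounded U)
    (hsc : ∀ z ∈ U, SimplyConnectedSpace (connectedComponentIn U z)) (hφ : IsTest univ φ) :
    gb W U φ φ = 2 * greenEnergy U φ := by
  let ι := {C : Set ℂ // ∃ z ∈ U, C = connectedComponentIn U z}
  have o (i : ι) : IsOpen i.1 := by
    obtain ⟨_, z, -, rfl⟩ := i
    exact hU.connectedComponentIn
  have c (i : ι) {x : ℂ} (hx : x ∈ i.1) : connectedComponentIn U x = i.1 := by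
    obtain ⟨z, -, e⟩ := i.2
    rw [e] at hx ⊢
    exact (connectedComponentIn_eq hx).symm
  have d : Pairwise (Function.onFun Disjoint fun i : ι => i.1) := fun i j hij =>
    Set.disjoint_left.2 fun x hi hj => hij (Subtype.ext ((c i hi).symm.trans (c j hj)))
  have : Countable ι := d.countable_of_isOpen_disjoint o fun ⟨_, z, hz, e⟩ =>
    ⟨z, e ▸ mem_connectedComponentIn hz⟩
  have e : ⋃ i : ι, i.1 = U := Subset.antisymm (iUnion_subset fun ⟨_, z, _, e⟩ =>
    e.subset.trans (connectedComponentIn_subset _ _)) fun z hz =>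
      mem_iUnion.2 ⟨⟨_, z, hz, rfl⟩, mem_connectedComponentIn hz⟩
  have b := G1.bmf_test hφ
  have i0 := int_gb hW hU hb b b
  have h1 := (GR.en1 o d (e.symm ▸ hb) b).mul_left 2
  have h2 := hasSum_integral_iUnion (s := fun i : ι => i.1 ×ˢ (univ : Set ℂ))
    (fun i => (o i).measurableSet.prod MeasurableSet.univ)
    (fun i j hij => (d hij).set_prod_left _ _) i0.integrableOn
  rw [← iUnion_prod_const, e, setIntegral_eq_integral_of_forall_compl_eq_zero fun p hp => by
    rw [Gk_left hU (by simpa using hp), ENNReal.toReal_zero, mul_zero]] at h2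
  rw [e] at h1
  refine h2.unique (Eq.subst (motive := fun f => HasSum f _) (funext fun i => Eq.symm ?_) h1)
  have hi : Bornology.IsBounded i.1 := hb.subset ((subset_iUnion (fun i : ι => i.1) i).trans e.subset)
  obtain ⟨z, hz, ez⟩ := i.2
  obtain ⟨a, b', h, -⟩ := Rm.exists_norm (U := i.1)
    ⟨o i, hi, ⟨z, ez ▸ mem_connectedComponentIn hz⟩, ez ▸ hsc z hz⟩
    (ez ▸ mem_connectedComponentIn hz)
  obtain ⟨g1, g2⟩ := gr1 _ a b' hi h
  rw [g2 φ hφ, setIntegral_prod _ i0.integrableOn, setIntegral_prod _ (int_mul g1 b b),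
    ← integral_const_mul]
  refine setIntegral_congr_fun (o i).measurableSet fun x hx => ?_
  simp only [Measure.restrict_univ]
  rw [← integral_const_mul, ← integral_indicator (o i).measurableSet]
  refine integral_congr_ae ((green_ae hW hi h hx).mono fun y hy => ?_)
  simp only
  rw [Gk_comp hU, c i hx, hy]
  by_cases hy : y ∈ i.1
  · rw [indicator_of_mem hy, indicator_of_mem hy, ENNReal.toReal_ofReal
      (mul_nonneg two_pos.le (G1.gD_nonneg (h.mf hx) (h.mf hy)))]
    ring
  · simp [hy]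

variable {ι : Type} {f : ι → ℂ → ℝ}

theorem gm_eq (hW : IsWiener W) (hU : IsOpen U) (hb : Bornology.IsBounded U) (hf : ∀ i, BMf (f i))
    (f0 : ∀ i z, 0 ≤ f i z) (i j : ι) : gm W U f i j = gb W U (f i) (f j) := by
  have m := meas_Gk hW hU
  rw [gm, gb, integral_eq_lintegral_of_nonneg_ae (ae_of_all _ fun p => mul_nonneg
    (mul_nonneg (f0 _ _) (f0 _ _)) ENNReal.toReal_nonneg) (int_gb hW hU hb (hf i) (hf j)).1,
    ← lintegral_prod (fun p : ℂ × ℂ => ENNReal.ofReal (f i p.1) * Gk W U p.1 p.2 *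
      ENNReal.ofReal (f j p.2)) ((((hf i).1.comp measurable_fst).ennreal_ofReal.mul m).mul
      ((hf j).1.comp measurable_snd).ennreal_ofReal).aemeasurable]
  congr 1
  refine lintegral_congr_ae ((ae_lt_top m (Gk_fin hW hU hb)).mono fun p hp => ?_)
  simp only
  rw [ENNReal.ofReal_mul' ENNReal.toReal_nonneg, ENNReal.ofReal_toReal hp.ne,
    ENNReal.ofReal_mul (f0 _ _), mul_right_comm]

theorem gb_sum [Fintype ι] (hW : IsWiener W) (hU : IsOpen U) (hb : Bornology.IsBounded U)
    (hf : ∀ i, BMf (f i)) (ξ η : ι → ℝ) :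
    gb W U (fun z => ∑ i, ξ i * f i z) (fun z => ∑ i, η i * f i z) =
      ∑ i, ∑ j, ξ i * η j * gb W U (f i) (f j) := by
  simp only [gb, ← integral_const_mul]
  rw [← Finset.sum_product', ← integral_finsetSum _ fun p _ =>
    (int_gb hW hU hb (hf p.1) (hf p.2)).const_mul _]
  congr with p
  rw [Finset.sum_mul_sum, Finset.sum_mul, Finset.sum_product]
  refine Finset.sum_congr rfl fun i _ => ?_
  rw [Finset.sum_mul]
  exact Finset.sum_congr rfl fun j _ => by ring

/-- **The Green matrix and the Green energy.** -/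
theorem gm_quad [Fintype ι] (hW : IsWiener W) (hU : IsOpen U) (hb : Bornology.IsBounded U)
    (hsc : ∀ z ∈ U, SimplyConnectedSpace (connectedComponentIn U z)) (hf : ∀ i, IsTest univ (f i))
    (f0 : ∀ i z, 0 ≤ f i z) (ξ : ι → ℝ) :
    ξ ⬝ᵥ gm W U f *ᵥ ξ = 2 * greenEnergy U fun z => ∑ i, ξ i * f i z := by
  have b (i) := G1.bmf_test (hf i)
  rw [← gb_self hW hU hb hsc (GR.test_sum Finset.univ fun i => GR.test_smul (hf i) (ξ i)),
    gb_sum hW hU hb b]
  simp only [dotProduct, mulVec, Finset.mul_sum, gm_eq hW hU hb b f0]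
  exact Finset.sum_congr rfl fun i _ => Finset.sum_congr rfl fun j _ => by ring

theorem gm_symm (hW : IsWiener W) (hU : IsOpen U) (hb : Bornology.IsBounded U)
    (hf : ∀ i, BMf (f i)) (f0 : ∀ i z, 0 ≤ f i z) (i j : ι) : gm W U f i j = gm W U f j i := by
  rw [gm_eq hW hU hb hf f0, gm_eq hW hU hb hf f0, gb_symm hW hU]

theorem gm_psd [Fintype ι] (hW : IsWiener W) (hU : IsOpen U) (hb : Bornology.IsBounded U)
    (hsc : ∀ z ∈ U, SimplyConnectedSpace (connectedComponentIn U z)) (hf : ∀ i, IsTest univ (f i))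
    (f0 : ∀ i z, 0 ≤ f i z) : (gm W U f).PosSemidef := by
  refine PosSemidef.of_dotProduct_mulVec_nonneg
    (Matrix.ext fun i j => gm_symm hW hU hb (fun i => G1.bmf_test (hf i)) f0 j i) fun ξ => ?_
  rw [star_trivial, gm_quad hW hU hb hsc hf f0]
  exact mul_nonneg two_pos.le (G1.green_nonneg _ _)

/-- the Green matrix is twice a Gram matrix -/
theorem gm_gram [Fintype ι] [DecidableEq ι] (hW : IsWiener W) (hU : IsOpen U)
    (hb : Bornology.IsBounded U)
    (hsc : ∀ z ∈ U, SimplyConnectedSpace (connectedComponentIn U z)) (hf : ∀ i, IsTest univ (f i))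
    (f0 : ∀ i z, 0 ≤ f i z) {H : Type*} [NormedAddCommGroup H] [InnerProductSpace ℝ H] {r : ι → H}
    (hr : ∀ ξ : ι → ℝ, ‖∑ i, ξ i • r i‖ ^ 2 = greenEnergy U fun z => ∑ i, ξ i * f i z) :
    gm W U f = (2 : ℝ) • Matrix.gram ℝ r := by
  have key (ξ : ι → ℝ) : ξ ⬝ᵥ gm W U f *ᵥ ξ = 2 * ‖∑ i, ξ i • r i‖ ^ 2 := by
    rw [gm_quad hW hU hb hsc hf f0, hr]
  ext i j
  have h1 := key (Pi.single i 1 + Pi.single j 1)
  have h2 := key (Pi.single i 1 - Pi.single j 1)
  simp only [mulVec_add, mulVec_sub, add_dotProduct, sub_dotProduct, dotProduct_add,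
    dotProduct_sub, mulVec_single_one, single_one_dotProduct, col_apply, Pi.add_apply,
    Pi.sub_apply, add_smul, sub_smul, Finset.sum_add_distrib, Finset.sum_sub_distrib,
    Pi.single_apply, ite_smul, one_smul, zero_smul, Finset.sum_ite_eq', Finset.mem_univ,
    if_true, norm_add_sq_real, norm_sub_sq_real] at h1 h2
  have h3 := gm_symm hW hU hb (fun i => G1.bmf_test (hf i)) f0 i j
  rw [Matrix.smul_apply, gram_apply, smul_eq_mul]
  linarith

end Vale.Agent.P155.GD
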