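import Vale.Agent.P155Z.GR0

/-!
# P155: the Green potential in a simply connected domain
-/

namespace Vale.Agent.P155.GD

open MeasureTheory Set Filter Topology Metric Vale.Agent.P155.Tree Vale.Agent.P155.U
open scoped ENNReal ContDiff

variable {V : Set ℂ} {a b : ℂ → ℂ} {f : ℂ → ℝ}

/-- conformal covariance of the Laplacian -/
theorem nlap_conf {Ω' : Set ℂ} (h : CI.Conf V Ω' a b) {z : ℂ} (hz : z ∈ V) {u : ℂ → ℝ}
    (hu : ∀ w ∈ Ω', ContDiffAt ℝ ∞ u w) :
    nlap (fun w => u (a w)) z = ‖deriv a z‖ ^ 2 * nlap u (a z) := by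
  have hd : DifferentiableAt ℝ (fderiv ℝ u) (a z) :=
    (((hu _ (h.mf hz)).of_le P198W.two_le_infty).fderiv_right (m := 1)
      (by norm_num)).differentiableAt (by norm_num)
  set L := fderiv ℝ (fderiv ℝ u) (a z)
  have h2 (e : ℂ) : fderiv ℝ (fun w => fderiv ℝ u w e) (a z) e = L e e := by
    rw [fderiv_clm_apply hd (differentiableAt_const e)]
    simp [L]
  have h3 : HasDerivAt (deriv a) (deriv (deriv a) z) z :=
    ((h.df.deriv h.ho).differentiableAt (h.ho.mem_nhds hz)).hasDerivAt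
  have h1 (e : ℂ) : fderiv ℝ (fun w => fderiv ℝ (fun w => u (a w)) w e) z e =
      L (e * deriv a z) (e * deriv a z) + fderiv ℝ u (a z) (e * (e * deriv (deriv a) z)) := by
    have e1 : (fun w => fderiv ℝ (fun w => u (a w)) w e) =ᶠ[𝓝 z]
        fun w => fderiv ℝ u (a w) (e * deriv a w) := by
      filter_upwards [h.ho.mem_nhds hz] with w hw
      have := (((hu _ (h.mf hw)).differentiableAt (by simp)).hasFDerivAt.comp w
        (h.hasFDerivAt hw)).fderiv
      exact congrArg (· e) this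
    have := (hd.hasFDerivAt.comp z (h.hasFDerivAt hz)).clm_apply
      ((h3.const_mul e).hasFDerivAt.restrictScalars ℝ)
    rw [e1.fderiv_eq]
    refine (congrArg (· e) this.fderiv).trans ?_
    simp [L, add_comm]
  have c1 : 1 * deriv a z = (deriv a z).re • (1 : ℂ) + (deriv a z).im • Complex.I := by
    apply Complex.ext <;> simp
  have c2 : Complex.I * deriv a z = (-(deriv a z).im) • (1 : ℂ) + (deriv a z).re • Complex.I := by
    apply Complex.ext <;> simp
  have c3 : Complex.I * (Complex.I * deriv (deriv a) z) = -(1 * (1 * deriv (deriv a) z)) := by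
    rw [← mul_assoc, Complex.I_mul_I]
    ring
  unfold nlap
  rw [h1, h1, h2, h2, c1, c2, c3, Complex.sq_norm, Complex.normSq_apply]
  simp only [map_add, map_smul, map_neg, add_apply, smul_apply, smul_eq_mul]
  ring

theorem gD_comm (u v : ℂ) : gD u v = gD v u := by
  unfold gD
  rw [norm_div, norm_div, norm_sub_rev v u, ← Complex.norm_conj (1 - _ * v)]
  simp [mul_comm]

theorem int_gD {φ : ℂ → ℝ} (hφ : IsTest Tree.DD φ) {w : ℂ} (hw : w ∈ Tree.DD) :
    Integrable fun z => φ z * gD z w := by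
  obtain ⟨hm, M, hM⟩ := GR.bmf_test hφ
  have i1 : IntegrableOn (fun t : ℂ => |Real.log ‖t‖| + 1) (closedBall 0 2) :=
    (P167.BVP.Fund.lea_abslog.add (locallyIntegrable_const 1)).integrableOn_isCompact
      (isCompact_closedBall _ _)
  refine (((i1.integrable_indicator measurableSet_closedBall).comp_sub_left w).const_mul M).mono'
    (hm.mul (GR.measurable_gD.comp (measurable_id.prodMk measurable_const))).aestronglyMeasurable
    (ae_of_all _ fun z => ?_)
  have M0 := (abs_nonneg _).trans (hM 0)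
  by_cases h1 : z ∈ Tree.DD
  · rw [indicator_of_mem (mem_closedBall_zero_iff.2 (by
      linarith [norm_sub_le w z, mem_ball_zero_iff.1 h1, mem_ball_zero_iff.1 hw])), norm_mul,
      Real.norm_of_nonneg (GR.gD_bounds h1 hw).1]
    exact mul_le_mul (hM _) (GR.gD_bounds h1 hw).2.2 (GR.gD_bounds h1 hw).1 M0
  · rw [CI.test_off hφ h1, zero_mul, norm_zero]
    exact mul_nonneg M0 (indicator_nonneg (fun _ _ => by positivity) _)

/-- the potential of a nonnegative test function -/
theorem pot (h : CI.Conf V Tree.DD a b) (hf : IsTest V f) (f0 : ∀ z, 0 ≤ f z) :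
    ∃ (w : ℂ → ℝ) (L : ℝ), 0 ≤ L ∧ ∀ x ∈ V, ContDiffAt ℝ ∞ w x ∧ nlap w x = 2 * f x ∧ 0 ≤ w x ∧
      w x ≤ L * (1 - ‖a x‖ ^ 2) ∧ ENNReal.ofReal (w x) =
        ∫⁻ y in V, ENNReal.ofReal (2 * gD (a x) (a y)) * ENNReal.ofReal (f y) := by
  have hφ : IsTest Tree.DD (CI.pullD Tree.DD b fun z => 2 * f z) := CI.isTest_pullD' h.symm (GR.test_smul hf 2)
  obtain ⟨L, hL⟩ := GR.pot_bound hφ
  have p0 {w : ℂ} (hw : w ∈ Tree.DD) (z : ℂ) : 0 ≤ CI.pullD Tree.DD b (fun z => 2 * f z) z * gD z w := by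
    unfold CI.pullD
    split_ifs with hz
    · have := f0 (b z)
      have := (GR.gD_bounds hz hw).1
      positivity
    · simp
  refine ⟨fun x => ∫ z, CI.pullD Tree.DD b (fun z => 2 * f z) z * gD z (a x), L, ?_, fun x hx => ?_⟩
  · simpa using (abs_nonneg _).trans (hL 0 (mem_ball_self one_pos))
  have hw := h.mf hx
  refine ⟨(GR.pot_spec hφ hw).1.comp x (h.contDiffAt hx), ?_, integral_nonneg (p0 hw),
    (le_abs_self _).trans (hL _ hw), ?_⟩
  · rw [nlap_conf h hx fun w hw => (GR.pot_spec hφ hw).1, (GR.pot_spec hφ hw).2, CI.pullD,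
      if_pos hw, h.gf x hx, mul_left_comm, ← mul_pow, ← norm_mul, mul_comm (deriv a x),
      h.deriv_mul hx]
    simp
  · rw [ofReal_integral_eq_lintegral_ofReal (int_gD hφ hw) (ae_of_all _ (p0 hw)), ← h.symm.image,
      lintegral_image_eq_lintegral_abs_det_fderiv_mul volume h.ho'.measurableSet
        (fun z hz => (h.symm.hasFDerivAt hz).hasFDerivWithinAt) h.symm.injOn,
      ← lintegral_indicator h.ho'.measurableSet]
    refine lintegral_congr fun z => ?_
    by_cases hz : z ∈ Tree.DD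
    · rw [indicator_of_mem hz, CI.det_mul, h.fg z hz, CI.pullD, if_pos hz, gD_comm,
        abs_of_nonneg (by positivity), ← ENNReal.ofReal_mul' (f0 _),
        ← ENNReal.ofReal_mul (by positivity)]
      congr 1
      ring
    · simp [hz, CI.pullD]

/-- two measures on an open set which agree on test functions -/
theorem ext_test (hV : IsOpen V) {μ ν : Measure ℂ} [IsFiniteMeasure μ] (h1 : μ Vᶜ = 0)
    (h2 : ν Vᶜ = 0) (h : ∀ f, IsTest V f → (∀ z, 0 ≤ f z) →
      ∫⁻ z, ENNReal.ofReal (f z) ∂μ = ∫⁻ z, ENNReal.ofReal (f z) ∂ν) : μ = ν := by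
  have key {μ ν : Measure ℂ} (h1 : μ Vᶜ = 0) (h : ∀ f, IsTest V f → (∀ z, 0 ≤ f z) →
      ∫⁻ z, ENNReal.ofReal (f z) ∂μ = ∫⁻ z, ENNReal.ofReal (f z) ∂ν) {O : Set ℂ} (hO : IsOpen O) :
      μ O ≤ ν O := by
    obtain ⟨ζ, z1, z2, z3⟩ := en.2.2 _ (hO.inter hV)
    have m (n) : Measurable fun z => ENNReal.ofReal (ζ n z) :=
      (z1 n).1.continuous.measurable.ennreal_ofReal
    rw [← measure_inter_conull h1, ← lintegral_indicator_one (hO.inter hV).measurableSet]
    refine le_trans (lintegral_mono fun z => ?_) ((lintegral_liminf_le (u := atTop) m).trans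
      (liminf_le_of_frequently_le' (Frequently.of_forall fun n => ?_)))
    · refine indicator_apply_le' (fun hz => le_liminf_of_le (h := ?_)) fun _ => zero_le
      filter_upwards [z3 z hz] with n hn
      simp [hn]
    · rw [h _ ⟨(z1 n).1, (z1 n).2.1, (z1 n).2.2.trans inter_subset_right⟩ fun z => (z2 n z).1,
        ← lintegral_indicator_one hO.measurableSet]
      refine lintegral_mono fun z => ?_
      by_cases hz : z ∈ O
      · simpa [hz] using (z2 n z).2
      · simp [image_eq_zero_of_notMem_tsupport fun h => hz ((z1 n).2.2 h).1]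
  have e {O : Set ℂ} (hO : IsOpen O) : μ O = ν O :=
    le_antisymm (key h1 h hO) (key h2 (fun f a b => (h f a b).symm) hO)
  exact ext_of_generate_finite _ (BorelSpace.measurable_eq.trans rfl) isPiSystem_isOpen
    (fun _ => e) (e isOpen_univ)

end Vale.Agent.P155.GD
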