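import Vale.Agent.P155G.Dyn
import Vale.Agent.P155G.Pot
import Vale.Agent.P155B.Br
import Vale.Agent.P155L.Defs

/-!
# P155: the Green function of Brownian motion killed outside a simply connected domain
-/

namespace Vale.Agent.P155.GD

open MeasureTheory Set Filter Topology Metric Vale.Agent.P155.Tree Vale.Agent.P155.U
open Vale.Agent.P155.BL Vale.Agent.P155.LJ
open scoped ENNReal

variable {W : Measure Pa} {V : Set ℂ} {a b : ℂ → ℂ} {x : ℂ}

theorem mk (hW : IsWiener W) : MK W := fun x _ hs _ hH => hW.markov hs x hH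

theorem occ_mono {U : Set ℂ} (h : U ⊆ V) (g : ℂ → ℝ≥0∞) : occ W x U g ≤ occ W x V g :=
  lintegral_mono_set fun _ hp => ⟨hp.1, hp.2.mono_right h⟩

/-- the mean exit time from a bounded set -/
theorem occ_one (hW : IsWiener W) {c : ℂ} {R : ℝ} (hR : 0 < R) (hV : V ⊆ closedBall c R)
    (hx : x ∈ V) : occ W x V (fun _ => 1) ≤ ENNReal.ofReal (2 * R ^ 2) := by
  obtain ⟨ζ, z1, z2, z3⟩ := GR.exists_cut (isCompact_closedBall c R) isOpen_ball
    (closedBall_subset_ball (by linarith : R < 2 * R))
  have t := GR.test_mul (u := fun w => -(1 / 2) * (‖w - c‖ ^ 2 + -(2 * R) ^ 2))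
    (fun z _ => (contDiff_const.mul ((Y877.sq_contDiff c).add contDiff_const)).contDiffAt) z1
  have p (z : ℂ) : 0 ≤ ζ z * (-(1 / 2) * (‖z - c‖ ^ 2 + -(2 * R) ^ 2)) := by
    by_cases hz : z ∈ ball c (2 * R)
    · rw [mem_ball, dist_eq_norm] at hz
      exact mul_nonneg (z2 z).1 (by nlinarith [norm_nonneg (z - c)])
    · rw [CI.test_off z1 hz, zero_mul]
  have := (dyn (f := fun _ => 1) hW (mk hW) ⟨t.1, t.2.1⟩ p (isCompact_closedBall c R) (hV hx)
    continuous_const (fun _ => zero_le_one) (fun y hy => by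
      have e : nlap (fun z => ζ z * (-(1 / 2) * (‖z - c‖ ^ 2 + -(2 * R) ^ 2))) y = 2 * 1 := by
        rw [Y877.nlap_congr ((z3 y hy).mono fun w hw => by rw [hw, one_mul]),
          Y877.nlap_lin ((Y877.sq_contDiff c).of_le P198W.two_le_infty).contDiffAt
            contDiffAt_const, Y877.nlap_sq]
        simp [nlap]
        norm_num
      exact neg_eq_iff_eq_neg.1 e) (ε := 2 * R ^ 2) fun y _ => by
        nlinarith [z2 y, sq_nonneg ‖y - c‖, sq_nonneg R, mul_nonneg (z2 y).1 (sq_nonneg ‖y - c‖)]).1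
  rw [ENNReal.ofReal_one] at this
  refine (occ_mono hV _).trans (this.trans (ENNReal.ofReal_le_ofReal ?_))
  nlinarith [z2 x, sq_nonneg ‖x - c‖, sq_nonneg R, mul_nonneg (z2 x).1 (sq_nonneg ‖x - c‖)]

theorem occ_test (hW : IsWiener W) (h : CI.Conf V Tree.DD a b) (hx : x ∈ V) {f : ℂ → ℝ}
    (hf : IsTest V f) (f0 : ∀ z, 0 ≤ f z) : occ W x V (fun y => ENNReal.ofReal (f y)) =
      ∫⁻ y in V, ENNReal.ofReal (2 * gD (a x) (a y)) * ENNReal.ofReal (f y) := by
  obtain ⟨w, L, hL, hw⟩ := pot h hf f0
  rw [← (hw x hx).2.2.2.2]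
  obtain ⟨r, r1, r2, r3⟩ := exists_seq_strictMono_tendsto' (mem_ball_zero_iff.1 (h.mf hx))
  have s (n) : closedBall (0 : ℂ) (r n) ⊆ Tree.DD := closedBall_subset_ball (r2 n).2
  have k1 (n) : IsCompact (b '' closedBall 0 (r n)) :=
    (isCompact_closedBall _ _).image_of_continuousOn (h.dg.continuousOn.mono (s n))
  have k2 (n) : b '' closedBall 0 (r n) ⊆ V := (h.mg.mono_left (s n)).image_subset
  have k3 (n) {y} (hy : y ∈ V) (h' : ‖a y‖ ≤ r n) : y ∈ b '' closedBall 0 (r n) :=
    ⟨a y, mem_closedBall_zero_iff.2 h', h.gf y hy⟩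
  have key (n) : occ W x (b '' closedBall 0 (r n)) (fun y => ENNReal.ofReal (f y)) ≤
      ENNReal.ofReal (w x) ∧ ENNReal.ofReal (w x) ≤ ENNReal.ofReal (L * (1 - r n ^ 2)) +
        occ W x (b '' closedBall 0 (r n)) (fun y => ENNReal.ofReal (f y)) := by
    obtain ⟨ζ, z1, z2, z3⟩ := GR.exists_cut (k1 n) h.ho (k2 n)
    have t := GR.test_mul (fun z hz => (hw z hz).1) z1
    have r0 : 0 ≤ r n := (norm_nonneg _).trans (r2 n).1.le
    have := dyn hW (mk hW) ⟨t.1, t.2.1⟩ (fun z => by
        by_cases hz : z ∈ V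
        · exact mul_nonneg (z2 z).1 (hw z hz).2.2.1
        · rw [CI.test_off z1 hz, zero_mul]) (k1 n) (k3 n hx (r2 n).1.le) hf.1.continuous f0
      (fun y hy => by
        have e : nlap (fun z => ζ z * w z) y = 2 * f y := by
          rw [Y877.nlap_congr ((z3 y hy).mono fun w hw => by rw [hw, one_mul]),
            (hw y (k2 n hy)).2.1]
        exact neg_eq_iff_eq_neg.1 e) (ε := L * (1 - r n ^ 2)) fun y hy => by
        by_cases hz : y ∈ V
        · have h1 : r n < ‖a y‖ := not_le.1 (mt (k3 n hz) hy)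
          refine (mul_le_of_le_one_left (hw y hz).2.2.1 (z2 y).2).trans ((hw y hz).2.2.2.1.trans ?_)
          gcongr
        · rw [CI.test_off z1 hz, zero_mul]
          exact mul_nonneg hL (by nlinarith [(r2 n).2])
    rwa [(z3 x (k3 n hx (r2 n).1.le)).self_of_nhds, one_mul] at this
  refine le_antisymm ?_ ?_
  · have e : E x V = ⋃ n, E x (b '' closedBall 0 (r n)) := by
      refine Subset.antisymm (fun p hp => ?_)
        (iUnion_subset fun n p hp => ⟨hp.1, hp.2.mono_right (k2 n)⟩)
      obtain ⟨t, ht, hm⟩ := isCompact_Icc.exists_isMaxOn (nonempty_Icc.2 hp.1)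
        ((h.df.continuousOn.comp (bm x p.1).continuous.continuousOn hp.2).norm)
      obtain ⟨n, hn⟩ := (r3.eventually (lt_mem_nhds (mem_ball_zero_iff.1 (h.mf (hp.2 ht))))).exists
      exact mem_iUnion.2 ⟨n, hp.1, fun s hs => k3 n (hp.2 hs) ((hm hs).trans hn.le)⟩
    rw [occ, e, setLIntegral_iUnion_of_directed _ (Monotone.directed_le
      (f := fun n => E x (b '' closedBall 0 (r n))) fun m n hmn p hp =>
      ⟨hp.1, hp.2.mono_right (image_mono (closedBall_subset_closedBall (r1.monotone hmn)))⟩)]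
    exact iSup_le fun n => (key n).1
  · have h1 := (ENNReal.tendsto_ofReal (((r3.pow 2).const_sub 1).const_mul L)).add_const
      (occ W x V fun y => ENNReal.ofReal (f y))
    simp only [one_pow, sub_self, mul_zero, ENNReal.ofReal_zero, zero_add] at h1
    exact ge_of_tendsto' h1 fun n => (key n).2.trans (add_le_add le_rfl (occ_mono (k2 n) _))

theorem range_stp {t : ℝ} (ht : 0 ≤ t) (q : Pa) :
    range (stp t (bm x q)) ⊆ V ↔ MapsTo (bm x q) (Icc 0 t) V := by
  refine ⟨fun h s hs => h ⟨s, by simp [hs.2]⟩, fun h => range_subset_iff.2 fun s => ?_⟩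
  rcases le_total s 0 with hs | hs
  · rw [stp_apply, bm_of_nonpos ((min_le_left _ _).trans hs), ← bm_zero x q]
    exact h ⟨le_rfl, ht⟩
  · exact h ⟨le_min hs ht, min_le_right _ _⟩

theorem meas_E (hV : IsOpen V) : MeasurableSet (E x V) := by
  have : E x V = {p | 0 ≤ p.2} ∩ (fun p : Pa × ℝ => stp p.2 (bm x p.1)) ⁻¹' {γ | range γ ⊆ V} := by
    ext p
    exact and_congr_right fun h => (range_stp h p.1).symm
  rw [this]
  exact (measurableSet_le measurable_const measurable_snd).inter
    ((measurableSet_range_open hV).preimage (by fun_prop))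

theorem meas_gDa (h : CI.Conf V Tree.DD a b) (x : ℂ) :
    AEMeasurable (fun y => ENNReal.ofReal (2 * gD (a x) (a y))) (volume.restrict V) :=
  ((GR.measurable_gD.comp_aemeasurable (aemeasurable_const.prodMk
    (h.df.continuousOn.aemeasurable h.ho.measurableSet))).const_mul 2).ennreal_ofReal

/-- **The occupation measure has twice the Green function as a density.** -/
theorem green_occ (hW : IsWiener W) (hb : Bornology.IsBounded V) (h : CI.Conf V Tree.DD a b)
    (hx : x ∈ V) {g : ℂ → ℝ≥0∞} (hg : Measurable g) :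
    occ W x V g = ∫⁻ y in V, ENNReal.ofReal (2 * gD (a x) (a y)) * g y := by
  have m := (cont_bm x).measurable
  have e1 {g : ℂ → ℝ≥0∞} (hg : Measurable g) : occ W x V g =
      ∫⁻ y, g y ∂((W.prod volume).restrict (E x V)).map fun p => bm x p.1 p.2 :=
    (lintegral_map hg m).symm
  have e2 {g : ℂ → ℝ≥0∞} (hg : Measurable g) :
      ∫⁻ y in V, ENNReal.ofReal (2 * gD (a x) (a y)) * g y = ∫⁻ y, g y ∂(volume.restrict V).withDensity
        fun y => ENNReal.ofReal (2 * gD (a x) (a y)) :=
    (lintegral_withDensity_eq_lintegral_mul₀ (meas_gDa h x) hg.aemeasurable).symm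
  obtain ⟨R, hR, hV⟩ := hb.subset_closedBall_lt 0 0
  have : IsFiniteMeasure (((W.prod volume).restrict (E x V)).map fun p => bm x p.1 p.2) :=
    ⟨by
      rw [← lintegral_one, ← e1 measurable_const]
      exact (occ_one hW hR hV hx).trans_lt ENNReal.ofReal_lt_top⟩
  rw [e1 hg, e2 hg, ext_test h.ho (μ := ((W.prod volume).restrict (E x V)).map fun p =>
    bm x p.1 p.2) ?_ ?_ fun f hf f0 => ?_]
  · rw [Measure.map_apply m h.ho.measurableSet.compl, Measure.restrict_apply' (meas_E h.ho)]
    exact measure_mono_null (fun p hp => hp.1 (hp.2.2 ⟨hp.2.1, le_rfl⟩)) measure_empty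
  · exact withDensity_absolutelyContinuous _ _ (by simp [h.ho.measurableSet.compl])
  · rw [← e1 hf.1.continuous.measurable.ennreal_ofReal, ← e2 hf.1.continuous.measurable.ennreal_ofReal,
      occ_test hW h hx hf f0]

theorem occ_time (hW : IsWiener W) (hV : IsOpen V) {g : ℂ → ℝ≥0∞} (hg : Measurable g) :
    occ W x V g = ∫⁻ t in Ioi (0 : ℝ), ∫⁻ q,
      {γ : BL.Pr | range γ ⊆ V}.indicator (fun γ => g (γ t)) (stp t (bm x q)) ∂W := by
  have := prob hW
  rw [occ, ← lintegral_indicator (meas_E hV), lintegral_prod_symm _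
    ((hg.fun_comp (cont_bm x).measurable).indicator (meas_E hV)).aemeasurable,
    Measure.restrict_congr_set Ioi_ae_eq_Ici, ← lintegral_indicator measurableSet_Ici]
  refine lintegral_congr fun t => ?_
  by_cases ht : t ∈ Ici (0 : ℝ)
  · rw [indicator_of_mem ht]
    refine lintegral_congr fun q => ?_
    by_cases hq : MapsTo (bm x q) (Icc 0 t) V
    · rw [indicator_of_mem (by exact ⟨ht, hq⟩), indicator_of_mem (by exact (range_stp ht q).2 hq)]
      simp
    · rw [indicator_of_notMem fun h => hq h.2, indicator_of_notMem fun h => hq ((range_stp ht q).1 h)]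
  · rw [indicator_of_notMem ht]
    exact (lintegral_congr fun q => indicator_of_notMem (fun h => ht h.1) _).trans lintegral_zero

theorem meas_qk (hW : IsWiener W) (hV : IsOpen V) :
    Measurable fun p : ℝ × ℂ × ℂ => qk W V p.1 p.2.1 p.2.2 := by
  have := prob hW
  have m := measurableSet_range_open (X := ℝ) hV
  simp only [qk, ← lintegral_indicator_one m]
  exact meas_Wb (F := fun p => {γ : BL.Pr | range γ ⊆ V}.indicator 1 p.2)
    ((measurable_one.indicator m).comp measurable_snd) (by fun_prop) (by fun_prop) (by fun_prop)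

theorem meas_Gk (hW : IsWiener W) (hV : IsOpen V) : Measurable fun p : ℂ × ℂ => Gk W V p.1 p.2 :=
  ((meas_qk hW hV).comp measurable_swap).lintegral_prod_right'

theorem occ_Gk (hW : IsWiener W) (hV : IsOpen V) {g : ℂ → ℝ≥0∞} (hg : Measurable g) :
    occ W x V g = ∫⁻ y, Gk W V x y * g y := by
  have m := measurableSet_range_open (X := ℝ) hV
  have m1 : Measurable fun p : ℝ × ℂ => qk W V p.1 x p.2 :=
    (meas_qk hW hV).comp (f := fun p : ℝ × ℂ => (p.1, x, p.2)) (by fun_prop)
  calc _ = ∫⁻ t in Ioi (0 : ℝ), ∫⁻ y, qk W V t x y * g y := by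
        rw [occ_time hW hV hg]
        refine setLIntegral_congr_fun measurableSet_Ioi fun t ht => ?_
        have m2 := (hg.comp (measurable_ev (X := ℝ) t)).indicator m
        refine (hW.endpt ht x m2).trans (lintegral_congr fun y => ?_)
        rw [qk, ← lintegral_indicator_one m, ← lintegral_mul_const _ (measurable_one.indicator m),
          lintegral_Wb _ _ _ _ m2, lintegral_Wb _ _ _ _ ((measurable_one.indicator m).mul_const _)]
        congr 2
        ext q
        by_cases h : br t x y q ∈ {γ : BL.Pr | range γ ⊆ V} <;> simp [h, br_of_ge ht le_rfl]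
    _ = _ := by
        rw [lintegral_lintegral_swap (m1.mul (hg.comp measurable_snd)).aemeasurable]
        exact lintegral_congr fun y => lintegral_mul_const _ (m1.comp measurable_prodMk_right)

/-- **The Green kernel of Brownian motion is twice the Green function** (integrated form). -/
theorem green (hW : IsWiener W) (hb : Bornology.IsBounded V) (h : CI.Conf V Tree.DD a b)
    (hx : x ∈ V) {g : ℂ → ℝ≥0∞} (hg : Measurable g) :
    ∫⁻ y, Gk W V x y * g y = ∫⁻ y in V, ENNReal.ofReal (2 * gD (a x) (a y)) * g y := by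
  rw [← occ_Gk hW h.ho hg, green_occ hW hb h hx hg]

/-- **The Green kernel of Brownian motion is twice the Green function.** -/
theorem green_ae (hW : IsWiener W) (hb : Bornology.IsBounded V) (h : CI.Conf V Tree.DD a b)
    (hx : x ∈ V) :
    ∀ᵐ y, Gk W V x y = V.indicator (fun y => ENNReal.ofReal (2 * gD (a x) (a y))) y := by
  refine ae_eq_of_forall_setLIntegral_eq_of_sigmaFinite₀
    ((meas_Gk hW h.ho).comp measurable_prodMk_left).aemeasurable
    ((aemeasurable_indicator_iff h.ho.measurableSet).2 (meas_gDa h x)) fun s hs _ => ?_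
  have := green hW hb h hx (measurable_one.indicator hs)
  rw [← lintegral_indicator h.ho.measurableSet] at this
  rw [← lintegral_indicator hs, ← lintegral_indicator hs]
  refine ((lintegral_congr fun y => ?_).trans this).trans (lintegral_congr fun y => ?_)
  · by_cases h : y ∈ s <;> simp [h]
  · by_cases h : y ∈ s <;> by_cases h' : y ∈ V <;> simp [h, h']

/-- the mean exit time bounds the mass of the Green kernel -/
theorem Gk_mass (hW : IsWiener W) (hV : IsOpen V) {c : ℂ} {R : ℝ} (hR : 0 < R)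
    (h : V ⊆ closedBall c R) (hx : x ∈ V) : ∫⁻ y, Gk W V x y ≤ ENNReal.ofReal (2 * R ^ 2) := by
  simpa using (occ_Gk hW hV measurable_const).symm.trans_le (occ_one hW hR h hx)

end Vale.Agent.P155.GD
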